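import Vale.Agent.P092.QT.Rep

/-!
P092 (helper305), project Q for all amplifications: `K ⊗ ℂ^ι` and the finite group which acts
irreducibly on `ℂ^ι`.  A finite Parseval frame becomes one tight vector.
-/

set_option linter.all false

open scoped InnerProductSpace
open Filter Topology ContinuousLinearMap

namespace Vale.Agent.P092.QT.D

open Vale.Agent.P092.H160 (Cmm mul_ap)

/-- `K ⊗ ℂ^ι` -/
abbrev KA (ι K : Type) [Fintype ι] [NormedAddCommGroup K] : Type := PiLp 2 (fun _ : ι => K)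

section amp

variable {ι K : Type} [Fintype ι] [NormedAddCommGroup K] [InnerProductSpace ℂ K] [CompleteSpace K]

/-- `T ⊗ 1` -/
noncomputable def am (ι : Type) [Fintype ι] (T : K →L[ℂ] K) : KA ι K →L[ℂ] KA ι K :=
  (PiLp.continuousLinearEquiv 2 ℂ (fun _ : ι => K)).symm.toContinuousLinearMap ∘L
    ((ContinuousLinearMap.pi fun i => T ∘L ContinuousLinearMap.proj i) ∘L
      (PiLp.continuousLinearEquiv 2 ℂ (fun _ : ι => K)).toContinuousLinearMap)

theorem am_apply (T : K →L[ℂ] K) (w : KA ι K) (i : ι) : am ι T w i = T (w i) := rfl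

theorem ka_ext {v w : KA ι K} (h : ∀ i, v i = w i) : v = w := by
  apply PiLp.ext
  exact h

theorem inner_ka (v w : KA ι K) : ⟪v, w⟫_ℂ = ∑ i, ⟪v i, w i⟫_ℂ := PiLp.inner_apply v w

theorem norm_ka (w : KA ι K) : ‖w‖ ^ 2 = ∑ i, ‖w i‖ ^ 2 := PiLp.norm_sq_eq_of_L2 _ w

theorem am_one : am ι (1 : K →L[ℂ] K) = 1 := by
  ext1 w
  exact ka_ext fun i => rfl

theorem am_mul (S T : K →L[ℂ] K) : am ι (S * T) = am ι S * am ι T := by
  ext1 w
  exact ka_ext fun i => rfl

theorem am_add (S T : K →L[ℂ] K) : am ι (S + T) = am ι S + am ι T := by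
  ext1 w
  exact ka_ext fun i => rfl

theorem am_sub (S T : K →L[ℂ] K) : am ι (S - T) = am ι S - am ι T := by
  ext1 w
  exact ka_ext fun i => rfl

theorem am_zero : am ι (0 : K →L[ℂ] K) = 0 := by
  ext1 w
  exact ka_ext fun i => rfl

theorem am_smul (c : ℂ) (T : K →L[ℂ] K) : am ι (c • T) = c • am ι T := by
  ext1 w
  exact ka_ext fun i => rfl

theorem am_adj (T : K →L[ℂ] K) : adjoint (am ι T) = am ι (adjoint T) := by
  refine ((ContinuousLinearMap.eq_adjoint_iff _ _).mpr fun u v => ?_).symm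
  rw [inner_ka, inner_ka]
  refine Finset.sum_congr rfl fun i _ => ?_
  rw [am_apply, am_apply, adjoint_inner_left]

theorem norm_am_le (T : K →L[ℂ] K) : ‖am ι T‖ ≤ ‖T‖ := by
  refine ContinuousLinearMap.opNorm_le_bound _ (norm_nonneg _) fun w => ?_
  refine abs_le_of_sq_le_sq' ?_ (by positivity) |>.2
  rw [mul_pow, norm_ka, norm_ka, Finset.mul_sum]
  refine Finset.sum_le_sum fun i _ => ?_
  rw [am_apply, ← mul_pow]
  exact pow_le_pow_left₀ (norm_nonneg _) (T.le_opNorm _) 2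

/-- the vector `u ⊗ e_j` -/
noncomputable def sn (j : ι) (u : K) : KA ι K := by
  classical exact WithLp.toLp 2 (Pi.single j u)

theorem sn_self (j : ι) (u : K) : sn j u j = u := by
  classical
  simp [sn]

theorem sn_ne {i j : ι} (h : i ≠ j) (u : K) : sn j u i = 0 := by
  classical
  simp [sn, h]

theorem norm_sn (j : ι) (u : K) : ‖sn j u‖ = ‖u‖ := by
  classical
  have h : ‖sn j u‖ ^ 2 = ‖u‖ ^ 2 := by
    rw [norm_ka, Finset.sum_eq_single j, sn_self]
    · intro i _ hij
      rw [sn_ne hij, norm_zero]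
      norm_num
    · exact fun h => absurd (Finset.mem_univ j) h
  exact (pow_left_inj₀ (norm_nonneg _) (norm_nonneg _) two_ne_zero).mp h

theorem sum_sn (w : KA ι K) : ∑ j, sn j (w j) = w := by
  classical
  refine ka_ext fun i => ?_
  have h : (∑ j, sn j (w j) : KA ι K) i = ∑ j, (sn j (w j) : KA ι K) i := by
    simp
  rw [h, Finset.sum_eq_single i, sn_self]
  · exact fun j _ hj => sn_ne (Ne.symm hj) _
  · exact fun h => absurd (Finset.mem_univ i) h

theorem am_sn (T : K →L[ℂ] K) (j : ι) (u : K) : am ι T (sn j u) = sn j (T u) := by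
  refine ka_ext fun i => ?_
  rw [am_apply]
  by_cases h : i = j
  · subst h
    rw [sn_self, sn_self]
  · rw [sn_ne h, sn_ne h, map_zero]

theorem norm_le_am [Nonempty ι] (T : K →L[ℂ] K) : ‖T‖ ≤ ‖am ι T‖ := by
  obtain ⟨j⟩ := ‹Nonempty ι›
  refine ContinuousLinearMap.opNorm_le_bound _ (ContinuousLinearMap.opNorm_nonneg _) fun u => ?_
  rw [← norm_sn j (T u), ← am_sn, ← norm_sn j u]
  exact (am ι T).le_opNorm _

theorem norm_am [Nonempty ι] (T : K →L[ℂ] K) : ‖am ι T‖ = ‖T‖ :=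
  le_antisymm (norm_am_le T) (norm_le_am T)

theorem am_inj [Nonempty ι] {S T : K →L[ℂ] K} (h : am ι S = am ι T) : S = T := by
  have h1 : ‖S - T‖ = 0 := by
    rw [← norm_am (ι := ι), am_sub, h, sub_self]
    exact ContinuousLinearMap.opNorm_zero
  exact sub_eq_zero.mp (norm_eq_zero.mp h1)

end amp

/-! ### The finite group -/

/-- Signs and translations of `ι`. -/
@[ext] structure SP (ι : Type) where
  e : ι → ℤˣ
  a : ι

section group

variable {ι : Type} [AddCommGroup ι]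

instance : Mul (SP ι) := ⟨fun s t => ⟨fun i => s.e i * t.e (i - s.a), s.a + t.a⟩⟩
instance : One (SP ι) := ⟨⟨fun _ => 1, 0⟩⟩
instance : Inv (SP ι) := ⟨fun s => ⟨fun i => (s.e (i + s.a))⁻¹, -s.a⟩⟩

theorem mul_e (s t : SP ι) (i : ι) : (s * t).e i = s.e i * t.e (i - s.a) := rfl
theorem mul_a (s t : SP ι) : (s * t).a = s.a + t.a := rfl
theorem one_e (i : ι) : (1 : SP ι).e i = 1 := rfl
theorem one_a : (1 : SP ι).a = 0 := rfl
theorem inv_e (s : SP ι) (i : ι) : (s⁻¹).e i = (s.e (i + s.a))⁻¹ := rfl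
theorem inv_a (s : SP ι) : (s⁻¹).a = -s.a := rfl

instance : Group (SP ι) where
  mul_assoc s t u := by
    ext1
    · funext i
      rw [mul_e, mul_e, mul_e, mul_e, mul_a, mul_assoc, sub_sub]
    · rw [mul_a, mul_a, mul_a, mul_a, add_assoc]
  one_mul s := by
    ext1
    · funext i
      rw [mul_e, one_e, one_a, one_mul, sub_zero]
    · rw [mul_a, one_a, zero_add]
  mul_one s := by
    ext1
    · funext i
      rw [mul_e, one_e, mul_one]
    · rw [mul_a, one_a, add_zero]
  inv_mul_cancel s := by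
    ext1
    · funext i
      rw [mul_e, inv_e, inv_a, sub_neg_eq_add, inv_mul_cancel]
      rfl
    · rw [mul_a, inv_a, neg_add_cancel]
      rfl

/-- The underlying pairs. -/
def spE (ι : Type) : SP ι ≃ (ι → ℤˣ) × ι where
  toFun s := (s.e, s.a)
  invFun p := ⟨p.1, p.2⟩
  left_inv _ := rfl
  right_inv _ := rfl

noncomputable instance [Fintype ι] : Fintype (SP ι) := by
  classical exact Fintype.ofEquiv _ (spE ι).symm

end group

section rep

variable {ι K : Type} [Fintype ι] [AddCommGroup ι] [NormedAddCommGroup K] [InnerProductSpace ℂ K]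
  [CompleteSpace K]

/-- The sign as a complex number. -/
def sgn (u : ℤˣ) : ℂ := ((u : ℤ) : ℂ)

theorem sgn_mul (u v : ℤˣ) : sgn (u * v) = sgn u * sgn v := by simp [sgn]

theorem sgn_one : sgn 1 = 1 := by simp [sgn]

theorem sgn_sq (u : ℤˣ) : sgn u * sgn u = 1 := by
  rw [← sgn_mul, Int.units_mul_self, sgn_one]

theorem sgn_conj (u : ℤˣ) : (starRingEnd ℂ) (sgn u) = sgn u := by simp [sgn]

theorem sgn_neg_one : sgn (-1) = -1 := by simp [sgn]

/-- the operator of `s` -/
noncomputable def sg0 (s : SP ι) : KA ι K →L[ℂ] KA ι K :=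
  (PiLp.continuousLinearEquiv 2 ℂ (fun _ : ι => K)).symm.toContinuousLinearMap ∘L
    ((ContinuousLinearMap.pi fun i => sgn (s.e i) • ContinuousLinearMap.proj (i - s.a)) ∘L
      (PiLp.continuousLinearEquiv 2 ℂ (fun _ : ι => K)).toContinuousLinearMap)

theorem sg0_apply (s : SP ι) (w : KA ι K) (i : ι) : sg0 s w i = sgn (s.e i) • w (i - s.a) := rfl

/-- the representation of the finite group -/
noncomputable def sg : SP ι →* (KA ι K →L[ℂ] KA ι K) where
  toFun := sg0
  map_one' := by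
    ext1 w
    refine ka_ext fun i => ?_
    rw [sg0_apply, one_e, one_a, sgn_one, one_smul, sub_zero]
    rfl
  map_mul' s t := by
    ext1 w
    refine ka_ext fun i => ?_
    rw [mul_ap, sg0_apply, sg0_apply, sg0_apply, mul_e, mul_a, sgn_mul, smul_smul, sub_sub]

theorem sg_apply (s : SP ι) (w : KA ι K) (i : ι) : sg s w i = sgn (s.e i) • w (i - s.a) := rfl

theorem am_sg (T : K →L[ℂ] K) (s : SP ι) : am ι T * sg s = sg s * am ι T := by
  ext1 w
  refine ka_ext fun i => ?_
  rw [mul_ap, mul_ap, am_apply, sg_apply, sg_apply, am_apply, map_smul]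

theorem sg_adj (s : SP ι) :
    adjoint (sg s : KA ι K →L[ℂ] KA ι K) = sg s⁻¹ := by
  refine ((ContinuousLinearMap.eq_adjoint_iff _ _).mpr fun u v => ?_).symm
  rw [inner_ka, inner_ka, ← Equiv.sum_comp (Equiv.addRight s.a)
    (fun i => ⟪u i, (sg s v : KA ι K) i⟫_ℂ)]
  refine Finset.sum_congr rfl fun i _ => ?_
  rw [sg_apply, sg_apply, inv_e, inv_a, inner_smul_left, inner_smul_right, Equiv.coe_addRight,
    add_sub_cancel_right, sub_neg_eq_add, sgn_conj]
  congr 1
  rw [Int.units_inv_eq_self]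

/-- Irreducibility. -/
theorem exists_am {T : KA ι K →L[ℂ] KA ι K} (hT : ∀ s : SP ι, T * sg s = sg s * T) :
    ∃ T₀ : K →L[ℂ] K, T = am ι T₀ := by
  classical
  -- the entries
  have h1 : ∀ s : SP ι, ∀ w : KA ι K, T (sg s w) = sg s (T w) := fun s w =>
    congrArg (fun S : KA ι K →L[ℂ] KA ι K => S w) (hT s)
  have hoff : ∀ i j : ι, i ≠ j → ∀ u : K, (T (sn j u) : KA ι K) i = 0 := by
    intro i j hij u
    set s : SP ι := ⟨fun k => if k = i then -1 else 1, 0⟩ with hs
    have h2 : sg s (sn j u : KA ι K) = sn j u := by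
      refine ka_ext fun k => ?_
      rw [sg_apply, sub_zero]
      by_cases hk : k = j
      · subst hk
        rw [sn_self, hs]
        simp only
        rw [if_neg (Ne.symm hij), sgn_one, one_smul]
      · rw [sn_ne hk, smul_zero]
    have h3 := congrArg (fun w : KA ι K => w i) (h1 s (sn j u))
    simp only [h2] at h3
    rw [sg_apply, sub_zero, hs] at h3
    simp only [if_true] at h3
    rw [sgn_neg_one, neg_one_smul] at h3
    have h4 : (2 : ℂ) • (T (sn j u) : KA ι K) i = 0 := by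
      rw [two_smul]
      nth_rewrite 1 [h3]
      exact neg_add_cancel _
    exact (smul_eq_zero.mp h4).resolve_left two_ne_zero
  have hdiag : ∀ i : ι, ∀ u : K, (T (sn i u) : KA ι K) i = (T (sn 0 u) : KA ι K) 0 := by
    intro i u
    set s : SP ι := ⟨fun k => 1, i⟩ with hs
    have h2 : sg s (sn 0 u : KA ι K) = sn i u := by
      refine ka_ext fun k => ?_
      rw [sg_apply]
      change sgn 1 • (sn 0 u : KA ι K) (k - i) = _
      rw [sgn_one, one_smul]
      by_cases hk : k = i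
      · subst hk
        rw [sub_self, sn_self, sn_self]
      · rw [sn_ne hk, sn_ne (sub_ne_zero.mpr hk)]
    have h3 := congrArg (fun w : KA ι K => w i) (h1 s (sn 0 u))
    simp only [h2] at h3
    rw [sg_apply] at h3
    change _ = sgn 1 • (T (sn 0 u) : KA ι K) (i - i) at h3
    rw [sgn_one, one_smul, sub_self] at h3
    exact h3
  have hsnc : Continuous fun u : K => (sn 0 u : KA ι K) := by
    refine (PiLp.continuous_toLp 2 _).comp ?_
    refine continuous_pi fun k => ?_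
    by_cases hk : k = 0
    · subst hk
      simp only [Pi.single_eq_same]
      exact continuous_id
    · simp only [Pi.single_eq_of_ne hk]
      exact continuous_const
  have hsadd : ∀ u v : K, (sn 0 (u + v) : KA ι K) = sn 0 u + sn 0 v := by
    intro u v
    refine ka_ext fun k => ?_
    rw [PiLp.add_apply]
    by_cases hk : k = 0
    · subst hk; rw [sn_self, sn_self, sn_self]
    · rw [sn_ne hk, sn_ne hk, sn_ne hk, add_zero]
  have hssmul : ∀ (c : ℂ) (u : K), (sn 0 (c • u) : KA ι K) = c • sn 0 u := by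
    intro c u
    refine ka_ext fun k => ?_
    rw [PiLp.smul_apply]
    by_cases hk : k = 0
    · subst hk; rw [sn_self, sn_self]
    · rw [sn_ne hk, sn_ne hk, smul_zero]
  let T₀ : K →L[ℂ] K :=
    { toFun := fun u => (T (sn 0 u) : KA ι K) 0
      map_add' := fun u v => by rw [hsadd, map_add, PiLp.add_apply]
      map_smul' := fun c u => by rw [hssmul, map_smul, PiLp.smul_apply, RingHom.id_apply]
      cont := (PiLp.continuous_apply 2 _ (0 : ι)).comp (T.continuous.comp hsnc) }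
  refine ⟨T₀, ?_⟩
  ext1 w
  refine ka_ext fun i => ?_
  rw [am_apply]
  change _ = (T (sn 0 (w i)) : KA ι K) 0
  conv_lhs => rw [← sum_sn w, map_sum]
  have h : (∑ j, T (sn j (w j)) : KA ι K) i = ∑ j, (T (sn j (w j)) : KA ι K) i := by simp
  rw [h, Finset.sum_eq_single i, hdiag]
  · exact fun j _ hj => hoff i j (Ne.symm hj) _
  · exact fun h => absurd (Finset.mem_univ i) h

/-- Orthogonality of the signs. -/
theorem sum_signs {ι : Type} [Fintype ι] [DecidableEq ι] (x : ι → ℂ) :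
    ∑ e : ι → ℤˣ, ‖∑ i, sgn (e i) * x i‖ ^ 2 = Fintype.card (ι → ℤˣ) * ∑ i, ‖x i‖ ^ 2 := by
  have h0 : ∀ i j : ι, i ≠ j → ∑ e : ι → ℤˣ, sgn (e i) * sgn (e j) = 0 := by
    intro i j hij
    obtain ⟨d, hd⟩ : ∃ d : ι → ℤˣ, d = Function.update (fun _ => (1 : ℤˣ)) i (-1) := ⟨_, rfl⟩
    have hdi : d i = -1 := by rw [hd, Function.update_self]
    have hdj : d j = 1 := by rw [hd, Function.update_of_ne (Ne.symm hij)]
    have h1 : ∑ e : ι → ℤˣ, sgn (e i) * sgn (e j) =
        ∑ e : ι → ℤˣ, sgn ((e * d) i) * sgn ((e * d) j) :=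
      (Equiv.sum_comp (Equiv.mulRight d) (fun e => sgn (e i) * sgn (e j))).symm
    have h2 : ∀ e : ι → ℤˣ, sgn ((e * d) i) * sgn ((e * d) j) = -(sgn (e i) * sgn (e j)) := by
      intro e
      rw [Pi.mul_apply, Pi.mul_apply, hdi, hdj, sgn_mul, mul_one, sgn_neg_one]
      ring
    simp only [h2, Finset.sum_neg_distrib] at h1
    exact self_eq_neg.mp h1
  have h3 : ((∑ e : ι → ℤˣ, ‖∑ i, sgn (e i) * x i‖ ^ 2 : ℝ) : ℂ) =
      ((Fintype.card (ι → ℤˣ) * ∑ i, ‖x i‖ ^ 2 : ℝ) : ℂ) := by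
    have hn : ∀ z : ℂ, ((‖z‖ ^ 2 : ℝ) : ℂ) = z * (starRingEnd ℂ) z := fun z => by
      rw [Complex.mul_conj, Complex.normSq_eq_norm_sq]
    rw [Complex.ofReal_sum]
    simp only [hn, map_sum, map_mul, sgn_conj, Finset.sum_mul_sum]
    rw [Finset.sum_comm]
    have h4 : ∀ i, ∑ e : ι → ℤˣ, ∑ j, sgn (e i) * x i * (sgn (e j) * (starRingEnd ℂ) (x j)) =
        Fintype.card (ι → ℤˣ) * (x i * (starRingEnd ℂ) (x i)) := by
      intro i
      rw [Finset.sum_comm, Finset.sum_eq_single i]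
      · have h5 : ∀ e : ι → ℤˣ, sgn (e i) * x i * (sgn (e i) * (starRingEnd ℂ) (x i)) =
            x i * (starRingEnd ℂ) (x i) := fun e => by
          have := sgn_sq (e i)
          linear_combination (x i * (starRingEnd ℂ) (x i)) * this
        simp only [h5, Finset.sum_const, Finset.card_univ, nsmul_eq_mul]
      · intro j _ hj
        have h6 : ∀ e : ι → ℤˣ, sgn (e i) * x i * (sgn (e j) * (starRingEnd ℂ) (x j)) =
            (x i * (starRingEnd ℂ) (x j)) * (sgn (e i) * sgn (e j)) := fun e => by ring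
        simp only [h6]
        rw [← Finset.mul_sum, h0 i j (Ne.symm hj), mul_zero]
      · exact fun h => absurd (Finset.mem_univ i) h
    simp only [h4]
    rw [← Finset.mul_sum]
    push_cast
    simp only [← hn]
    push_cast
    rfl
  exact_mod_cast h3

/-- The orthogonality relation for the finite group. -/
theorem schur : ∃ c : ℝ, 0 < c ∧ ∀ v w : KA ι K, ∑ s : SP ι, ‖⟪sg s w, v⟫_ℂ‖ ^ 2 =
    c * ∑ i, ∑ j, ‖⟪w j, v i⟫_ℂ‖ ^ 2 := by
  classical
  refine ⟨Fintype.card (ι → ℤˣ), by positivity, fun v w => ?_⟩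
  have h1 : ∑ s : SP ι, ‖⟪sg s w, v⟫_ℂ‖ ^ 2 =
      ∑ p : (ι → ℤˣ) × ι, ‖⟪sg ((spE ι).symm p) w, v⟫_ℂ‖ ^ 2 :=
    (Equiv.sum_comp (spE ι).symm (fun s => ‖⟪sg s w, v⟫_ℂ‖ ^ 2)).symm
  rw [h1, Fintype.sum_prod_type, Finset.sum_comm]
  have h2 : ∀ a : ι, ∑ e : ι → ℤˣ, ‖⟪sg ((spE ι).symm (e, a)) w, v⟫_ℂ‖ ^ 2 =
      Fintype.card (ι → ℤˣ) * ∑ i, ‖⟪w (i - a), v i⟫_ℂ‖ ^ 2 := by
    intro a
    rw [← sum_signs]
    refine Finset.sum_congr rfl fun e _ => ?_
    congr 2
    rw [inner_ka]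
    refine Finset.sum_congr rfl fun i _ => ?_
    rw [sg_apply, inner_smul_left, sgn_conj]
    rfl
  simp only [h2]
  rw [← Finset.mul_sum, Finset.sum_comm]
  congr 1
  refine Finset.sum_congr rfl fun i _ => ?_
  exact Equiv.sum_comp (Equiv.subLeft i) (fun j => ‖⟪w j, v i⟫_ℂ‖ ^ 2)

end rep

end Vale.Agent.P092.QT.D
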