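import Vale.Agent.P092.QT.D.Amp
import Vale.Agent.P092.QT.H805.Res
import Vale.Agent.P092.H962.Tr0

/-!
P092 (helper305), project Q for all amplifications: from finite Parseval frames on `K` to the two
frames (`Dbl`) on `K ⊗ ℂ^ι`.
-/

set_option linter.all false

open scoped InnerProductSpace ENNReal Topology
open Filter ContinuousLinearMap MeasureTheory

namespace Vale.Agent.P092.QT.D

open Vale.Agent.P092.H160 (Cmm mul_ap)
open Vale.Agent.P092.SR (Tri)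
open Vale.Agent.P092.QT.H156.Sm
open Vale.Agent.P092.QT.H715.Q
open Vale.Agent.P092.QT.H805 (Erg)

section defs

variable {X Γ ι K : Type} [Group X] [Group Γ] [Fintype ι] [AddCommGroup ι]
  [NormedAddCommGroup K] [InnerProductSpace ℂ K] [CompleteSpace K]

/-- Finite Parseval frame. -/
def PF {X ι K : Type} [Group X] [NormedAddCommGroup K] [InnerProductSpace ℂ K]
    (ρ : X →* (K →L[ℂ] K)) (ξ : ι → K) : Prop :=
  ∀ η : K, HasSum (fun p : ι × X => ‖⟪ρ p.2 (ξ p.1), η⟫_ℂ‖ ^ 2) (‖η‖ ^ 2)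

/-- `(x, s) ↦ (ρ x ⊗ 1) σ_s` -/
noncomputable def amH (ι : Type) [Fintype ι] [AddCommGroup ι] (ρ : X →* (K →L[ℂ] K)) :
    X × SP ι →* (KA ι K →L[ℂ] KA ι K) where
  toFun p := am ι (ρ p.1) * sg p.2
  map_one' := by
    rw [Prod.fst_one, Prod.snd_one, map_one, map_one, am_one, one_mul]
  map_mul' p q := by
    rw [Prod.fst_mul, Prod.snd_mul, map_mul, map_mul, am_mul]
    calc am ι (ρ p.1) * am ι (ρ q.1) * (sg p.2 * sg q.2)
        = am ι (ρ p.1) * (am ι (ρ q.1) * sg p.2) * sg q.2 := by simp only [mul_assoc]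
      _ = _ := by rw [am_sg]; simp only [mul_assoc]

theorem amH_apply (ρ : X →* (K →L[ℂ] K)) (p : X × SP ι) : amH ι ρ p = am ι (ρ p.1) * sg p.2 := rfl

/-- `g ↦ V g ⊗ 1` -/
noncomputable def amV (ι : Type) [Fintype ι] (V : Γ →* (K →L[ℂ] K)) :
    Γ →* (KA ι K →L[ℂ] KA ι K) where
  toFun g := am ι (V g)
  map_one' := by rw [map_one, am_one]
  map_mul' g h := by rw [map_mul, am_mul]

theorem amV_apply (V : Γ →* (K →L[ℂ] K)) (g : Γ) : amV ι V g = am ι (V g) := rfl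

/-- the vector of a family -/
def tl (ξ : ι → K) : KA ι K := WithLp.toLp 2 ξ

theorem tl_apply (ξ : ι → K) (i : ι) : tl ξ i = ξ i := rfl

/-- the unit vector of a family -/
noncomputable def om (ξ : ι → K) : KA ι K := (((‖tl ξ‖⁻¹ : ℝ)) : ℂ) • tl ξ

variable {ρ : X →* (K →L[ℂ] K)} {V : Γ →* (K →L[ℂ] K)} {ξ : ι → K}

theorem tl_ne (hne : ∃ k, ξ k ≠ 0) : tl ξ ≠ 0 := by
  obtain ⟨k, hk⟩ := hne
  intro h
  exact hk (by rw [← tl_apply ξ k, h]; rfl)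

theorem norm_om (hne : ∃ k, ξ k ≠ 0) : ‖om ξ‖ = 1 := by
  have h1 := norm_ne_zero_iff.mpr (tl_ne hne)
  rw [om, norm_smul, Complex.norm_real, norm_inv, norm_norm, inv_mul_cancel₀ h1]

/-- A finite Parseval frame gives one tight vector. -/
theorem trep_am (hadj : ∀ x, adjoint (ρ x) = ρ x⁻¹) (hf : PF ρ ξ) (hne : ∃ k, ξ k ≠ 0) :
    TRep (amH ι ρ) (om ξ) where
  adj p := by
    rw [amH_apply, amH_apply]
    change star (am ι (ρ p.1) * sg p.2) = _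
    rw [star_mul, star_eq_adjoint, star_eq_adjoint, sg_adj, am_adj, hadj, ← am_sg]
    rfl
  norm_one := norm_om hne
  frame := by
    obtain ⟨c, hc, hs⟩ := schur (ι := ι) (K := K)
    obtain ⟨t, ht⟩ : ∃ t : ℝ, t = ‖tl ξ‖⁻¹ := ⟨_, rfl⟩
    have ht0 : 0 < t := by
      rw [ht]
      exact inv_pos.mpr (norm_pos_iff.mpr (tl_ne hne))
    refine ⟨t ^ 2 * c, by positivity, fun v => ?_⟩
    -- the sum over `X` for one vector of `K`
    have h1 : ∀ η : K, HasSum (fun x => ∑ j, ‖⟪ρ x (ξ j), η⟫_ℂ‖ ^ 2) (‖η‖ ^ 2) := by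
      intro η
      have h2 := (Equiv.prodComm X ι).hasSum_iff.mpr (hf η)
      exact h2.prod_fiberwise fun x => hasSum_fintype _
    have h2 : HasSum (fun x => ∑ i, ∑ j, ‖⟪ρ x (ξ j), v i⟫_ℂ‖ ^ 2) (∑ i, ‖v i‖ ^ 2) :=
      hasSum_sum fun i _ => h1 (v i)
    have h3 : ∀ x, ∑ s : SP ι, ‖⟪amH ι ρ (x, s) (om ξ), v⟫_ℂ‖ ^ 2 =
        (t ^ 2 * c) * ∑ i, ∑ j, ‖⟪ρ x (ξ j), v i⟫_ℂ‖ ^ 2 := by
      intro x
      have h4 : ∀ s : SP ι, ‖⟪amH ι ρ (x, s) (om ξ), v⟫_ℂ‖ ^ 2 =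
          t ^ 2 * ‖⟪sg s (am ι (ρ x) (tl ξ)), v⟫_ℂ‖ ^ 2 := by
        intro s
        rw [amH_apply, am_sg, mul_ap, om, map_smul, map_smul, inner_smul_left, norm_mul, mul_pow]
        congr 2
        rw [RCLike.norm_conj, Complex.norm_real, Real.norm_of_nonneg (by positivity), ← ht]
      simp only [h4]
      rw [← Finset.mul_sum, hs, mul_assoc]
      rfl
    have h5 := h2.mul_left (t ^ 2 * c)
    have hsum : Summable fun p : X × SP ι => ‖⟪amH ι ρ p (om ξ), v⟫_ℂ‖ ^ 2 := by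
      refine (summable_prod_of_nonneg fun _ => by positivity).2 ⟨fun x => ?_, ?_⟩
      · exact (hasSum_fintype _).summable
      · refine h5.summable.congr fun x => ?_
        rw [tsum_fintype, h3]
    have h6 := hsum.hasSum.prod_fiberwise (g := fun x =>
      ∑ s : SP ι, ‖⟪amH ι ρ (x, s) (om ξ), v⟫_ℂ‖ ^ 2) fun x => hasSum_fintype _
    simp only [h3] at h6
    have h7 := h6.unique h5
    rw [← norm_ka] at h7
    rw [← h7]
    exact hsum.hasSum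

/-- The commutant of the amplified representation. -/
theorem cmm_am {T : KA ι K →L[ℂ] KA ι K} :
    Cmm (amH ι ρ) T ↔ ∃ T₀, T = am ι T₀ ∧ Cmm ρ T₀ := by
  constructor
  · intro h
    obtain ⟨T₀, rfl⟩ := exists_am (T := T) fun s => by
      have h1 := h (1, s)
      rw [amH_apply, map_one, am_one, one_mul] at h1
      exact h1
    refine ⟨T₀, rfl, fun x => ?_⟩
    have h1 := h (x, 1)
    rw [amH_apply, map_one, mul_one, ← am_mul, ← am_mul] at h1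
    haveI : Nonempty ι := ⟨0⟩
    exact am_inj h1
  · rintro ⟨T₀, rfl, h⟩ p
    rw [amH_apply, ← mul_assoc, ← am_mul, h, am_mul, mul_assoc, am_sg, mul_assoc]

theorem comm_am (hc : ∀ v, Cmm ρ (V v)) (v : Γ) : Cmm (amH ι ρ) (amV ι V v) :=
  cmm_am.mpr ⟨V v, rfl, hc v⟩

theorem adj_amV (h : ∀ v, adjoint (V v) = V v⁻¹) (v : Γ) : adjoint (amV ι V v) = amV ι V v⁻¹ := by
  rw [amV_apply, am_adj, h]
  rfl

theorem inner_om (S T : K →L[ℂ] K) : ⟪am ι S (om ξ), am ι T (om ξ)⟫_ℂ =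
    ((‖tl ξ‖⁻¹ ^ 2 : ℝ) : ℂ) * ∑ k, ⟪S (ξ k), T (ξ k)⟫_ℂ := by
  rw [om, map_smul, map_smul, inner_smul_left, inner_smul_right, inner_ka, Complex.conj_ofReal,
    ← mul_assoc, ← Complex.ofReal_mul, ← sq]
  rfl

theorem norm_am_om (T : K →L[ℂ] K) : ‖am ι T (om ξ)‖ ^ 2 = ‖tl ξ‖⁻¹ ^ 2 * ∑ k, ‖T (ξ k)‖ ^ 2 := by
  rw [om, map_smul, norm_smul, mul_pow, norm_ka, Complex.norm_real, Real.norm_of_nonneg
    (by positivity)]
  rfl

theorem frm_am (hadj : ∀ x, adjoint (ρ x) = ρ x⁻¹) (hf : PF ρ ξ) (hne : ∃ k, ξ k ≠ 0)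
    (hV : ∀ v, adjoint (V v) = V v⁻¹) (hc : ∀ v, Cmm ρ (V v))
    (ho : ∀ v, v ≠ 1 → ∑ k, ⟪ξ k, V v (ξ k)⟫_ℂ = 0) : Frm (amH ι ρ) (amV ι V) (om ξ) where
  reg := trep_am hadj hf hne
  adj := adj_amV hV
  comm := comm_am hc
  ort v hv := by
    have h1 := inner_om (ι := ι) (ξ := ξ) 1 (V v)
    rw [am_one] at h1
    have h2 : ∑ k, ⟪(1 : K →L[ℂ] K) (ξ k), V v (ξ k)⟫_ℂ = 0 := ho v hv
    rw [h2, mul_zero] at h1
    exact h1

end defs

section fields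

variable {X Γ ι K G H : Type} [Group X] [Group Γ] [Group G] [Group H] [Fintype ι] [AddCommGroup ι]
  [TopologicalSpace G] [TopologicalSpace H] [IsTopologicalGroup G] [IsTopologicalGroup H]
  [MeasurableSpace G] [BorelSpace G]
  [NormedAddCommGroup K] [InnerProductSpace ℂ K] [CompleteSpace K]
  {ρ : X →* (K →L[ℂ] K)} {V : Γ →* (K →L[ℂ] K)} {ξ : ι → K} {b : G → (K →L[ℂ] K)}
  {p : X →* G} {κ : Γ →* H} {μ : Measure G}

theorem fd_am (hb : Fd p ρ b) :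
    Fd (p.comp (MonoidHom.fst X (SP ι))) (amH ι ρ) (fun x => am ι (b x)) where
  equiv := by
    rintro ⟨x, s⟩ y
    have e1 : amH ι ρ (x, s)⁻¹ = sg s⁻¹ * am ι (ρ x⁻¹) := by
      rw [amH_apply, am_sg]
      rfl
    rw [e1]
    change am ι (b (p x * y)) = am ι (ρ x) * sg s * am ι (b y) * (sg s⁻¹ * am ι (ρ x⁻¹))
    rw [hb.equiv, am_mul, am_mul]
    have e2 : sg s * am ι (b y) * sg s⁻¹ = am ι (b y) := by
      rw [← am_sg, mul_assoc, ← map_mul, mul_inv_cancel, map_one, mul_one]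
    calc am ι (ρ x) * am ι (b y) * am ι (ρ x⁻¹)
        = am ι (ρ x) * (sg s * am ι (b y) * sg s⁻¹) * am ι (ρ x⁻¹) := by rw [e2]
      _ = _ := by simp only [mul_assoc]
  bdd := by
    obtain ⟨C, hC⟩ := hb.bdd
    exact ⟨C, fun x => (norm_am_le _).trans (hC x)⟩
  rcont := by
    intro ε hε
    obtain ⟨U, hU, h1⟩ := hb.rcont ε hε
    refine ⟨U, hU, fun y hy x => ?_⟩
    rw [← am_sub]
    exact (norm_am_le _).trans (h1 y hy x)

theorem acont_am (hb : ACont κ V b) : ACont κ (amV ι V) (fun x : G => am ι (b x)) := by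
  intro ε hε
  obtain ⟨U, hU, h1⟩ := hb ε hε
  refine ⟨U, hU, fun v hv x => ?_⟩
  rw [amV_apply, amV_apply, ← am_mul, ← am_mul, ← am_sub]
  exact (norm_am_le _).trans (h1 v hv x)

theorem continuous_am : Continuous (fun T : K →L[ℂ] K => am ι T) := by
  refine (LipschitzWith.of_dist_le_mul (K := 1) fun S T => ?_).continuous
  rw [dist_eq_norm, dist_eq_norm, ← am_sub, NNReal.coe_one, one_mul]
  exact norm_am_le _

theorem l2_am [SecondCountableTopology G] (hc : Continuous b) (h2 : ∀ k, MemLp (fun x => b x (ξ k)) 2 μ) :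
    L2 (om ξ) μ (fun x => am ι (b x)) := by
  have h3 : MemLp (fun x => am ι (b x) (tl ξ)) 2 μ := by
    have e : (fun x => am ι (b x) (tl ξ)) = fun x => ∑ k, (sn k (b x (ξ k)) : KA ι K) := by
      funext x
      exact (sum_sn _).symm
    rw [e]
    refine memLp_finsetSum _ fun k _ => ?_
    have hcont : Continuous fun x => (sn k (b x (ξ k)) : KA ι K) := by
      have e2 : (fun x => (sn k (b x (ξ k)) : KA ι K)) = fun x => am ι (b x) (sn k (ξ k)) := by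
        funext x
        rw [am_sn]
      rw [e2]
      exact (continuous_am.comp hc).clm_apply continuous_const
    exact (memLp_congr_norm hcont.aestronglyMeasurable (h2 k).1
      (Eventually.of_forall fun x => norm_sn k _)).2 (h2 k)
  have h4 : (fun x => am ι (b x) (om ξ)) = fun x => (((‖tl ξ‖⁻¹ : ℝ)) : ℂ) • am ι (b x) (tl ξ) := by
    funext x
    rw [om, map_smul]
  change MemLp (fun x => am ι (b x) (om ξ)) 2 μ
  rw [h4]
  exact h3.const_smul (((‖tl ξ‖⁻¹ : ℝ)) : ℂ)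

/-- Smooth fields on `K` give smooth fields on `K ⊗ ℂ^ι`. -/
theorem smo_am [SecondCountableTopology G] (hb : Fd p ρ b) (ha : ACont κ V b) (h2 : ∀ k, MemLp (fun x => b x (ξ k)) 2 μ) :
    Smo (p.comp (MonoidHom.fst X (SP ι))) κ (amH ι ρ) (amV ι V) (om ξ) μ (fun x => am ι (b x)) where
  toFd := fd_am hb
  acont := acont_am ha
  l2 := l2_am hb.continuous h2

/-- Ergodicity on `K`, for continuity in a finite family of vectors. -/
def ErgC (κ : Γ →* H) (ρ : X →* (K →L[ℂ] K)) (V : Γ →* (K →L[ℂ] K)) (ξ : ι → K) : Prop :=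
  ∀ T : K →L[ℂ] K, Cmm ρ T → (∀ ε : ℝ, 0 < ε → ∃ W ∈ 𝓝 (1 : H), ∀ v, κ v ∈ W →
    ∀ k, ‖(V v * T * V v⁻¹ - T) (ξ k)‖ ≤ ε) → ∃ c : ℂ, T = c • 1

theorem erg_am (hne : ∃ k, ξ k ≠ 0) (h : ErgC κ ρ V ξ) :
    Erg κ (amH ι ρ) (amV ι V) (om ξ) := by
  intro T hT hc
  obtain ⟨T₀, rfl, hT₀⟩ := cmm_am.mp hT
  obtain ⟨c, rfl⟩ := h T₀ hT₀ (by
    intro ε hε
    have hn : 0 < ‖tl ξ‖ := norm_pos_iff.mpr (tl_ne hne)
    obtain ⟨W, hW, h1⟩ := hc (ε * ‖tl ξ‖⁻¹) (by positivity)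
    refine ⟨W, hW, fun v hv k => ?_⟩
    have h2 := h1 v hv
    rw [amV_apply, amV_apply, ← am_mul, ← am_mul, ← am_sub] at h2
    have h3 := norm_am_om (ι := ι) (ξ := ξ) (V v * T₀ * V v⁻¹ - T₀)
    have h4 : ‖(V v * T₀ * V v⁻¹ - T₀) (ξ k)‖ ^ 2 ≤
        ∑ k, ‖(V v * T₀ * V v⁻¹ - T₀) (ξ k)‖ ^ 2 :=
      Finset.single_le_sum (f := fun k => ‖(V v * T₀ * V v⁻¹ - T₀) (ξ k)‖ ^ 2)
        (fun _ _ => by positivity) (Finset.mem_univ k)
    have h5 : ‖tl ξ‖⁻¹ ^ 2 * ‖(V v * T₀ * V v⁻¹ - T₀) (ξ k)‖ ^ 2 ≤ (ε * ‖tl ξ‖⁻¹) ^ 2 := by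
      calc _ ≤ ‖tl ξ‖⁻¹ ^ 2 * ∑ k, ‖(V v * T₀ * V v⁻¹ - T₀) (ξ k)‖ ^ 2 := by gcongr
        _ = ‖am ι (V v * T₀ * V v⁻¹ - T₀) (om ξ)‖ ^ 2 := h3.symm
        _ ≤ _ := by gcongr
    have h6 : (‖tl ξ‖⁻¹ * ‖(V v * T₀ * V v⁻¹ - T₀) (ξ k)‖) ^ 2 ≤ (ε * ‖tl ξ‖⁻¹) ^ 2 := by
      rwa [mul_pow]
    have h7 := abs_le_of_sq_le_sq' h6 (by positivity) |>.2
    rw [mul_comm] at h7
    exact le_of_mul_le_mul_right h7 (by positivity))
  exact ⟨c, by rw [am_smul, am_one]⟩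

end fields

/-! ### The two frames -/

section dbl

variable {Γ ι K : Type} [Group Γ] [Fintype ι] [AddCommGroup ι]
  [NormedAddCommGroup K] [InnerProductSpace ℂ K] [CompleteSpace K]
  {V R₁ R₂ : Γ →* (K →L[ℂ] K)} {ξ ξ' : ι → K}

/-- `(a, b) ↦ R₁ a * R₂ b` -/
noncomputable def cop (R₁ R₂ : Γ →* (K →L[ℂ] K)) (h : ∀ g k, R₁ g * R₂ k = R₂ k * R₁ g) :
    Γ × Γ →* (K →L[ℂ] K) where
  toFun p := R₁ p.1 * R₂ p.2
  map_one' := by rw [Prod.fst_one, Prod.snd_one, map_one, map_one, one_mul]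
  map_mul' p q := by
    rw [Prod.fst_mul, Prod.snd_mul, map_mul, map_mul]
    calc R₁ p.1 * R₁ q.1 * (R₂ p.2 * R₂ q.2) = R₁ p.1 * (R₁ q.1 * R₂ p.2) * R₂ q.2 := by
          simp only [mul_assoc]
      _ = _ := by rw [h]; simp only [mul_assoc]

theorem cop_adj {h : ∀ g k, R₁ g * R₂ k = R₂ k * R₁ g} (h1 : ∀ g, adjoint (R₁ g) = R₁ g⁻¹)
    (h2 : ∀ g, adjoint (R₂ g) = R₂ g⁻¹) (x : Γ × Γ) :
    adjoint (cop R₁ R₂ h x) = cop R₁ R₂ h x⁻¹ := by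
  change star (R₁ x.1 * R₂ x.2) = R₁ x.1⁻¹ * R₂ x.2⁻¹
  rw [star_mul, star_eq_adjoint, star_eq_adjoint, h1, h2, h]

theorem cop_cmm {h : ∀ g k, R₁ g * R₂ k = R₂ k * R₁ g} (h1 : ∀ g k, V g * R₁ k = R₁ k * V g)
    (h2 : ∀ g k, V g * R₂ k = R₂ k * V g) (v : Γ) : Cmm (cop R₁ R₂ h) (V v) := by
  intro x
  change V v * (R₁ x.1 * R₂ x.2) = R₁ x.1 * R₂ x.2 * V v
  rw [← mul_assoc, h1, mul_assoc, h2, mul_assoc]

/-- The leg as a homomorphism on `(Γ × Γ) × F`. -/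
def lg1 (Γ ι : Type) [Group Γ] [AddCommGroup ι] : (Γ × Γ) × SP ι →* Γ :=
  (MonoidHom.fst Γ Γ).comp (MonoidHom.fst (Γ × Γ) (SP ι))

def lg2 (Γ ι : Type) [Group Γ] [AddCommGroup ι] : (Γ × Γ) × SP ι →* Γ :=
  (MonoidHom.snd Γ Γ).comp (MonoidHom.fst (Γ × Γ) (SP ι))

theorem lg1_apply (x : (Γ × Γ) × SP ι) : lg1 Γ ι x = x.1.1 := rfl
theorem lg2_apply (x : (Γ × Γ) × SP ι) : lg2 Γ ι x = x.1.2 := rfl

/-- The first frame. -/
theorem frm_tri (hΓ : ∀ g : Γ, g ≠ 1 → Set.Infinite {y : Γ | ∃ h, y = h * g * h⁻¹})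
    (hT : Tri V R₁ R₂ ξ) (hT' : Tri R₁ V R₂ ξ') :
    Frm (amH ι (cop R₁ R₂ hT.comm₁₂)) (amV ι V) (om ξ) :=
  frm_am (cop_adj hT.adj₁ hT.adj₂) hT.frame hT.ne hT.adjV (cop_cmm hT.comm₁ hT.comm₂)
    (Vale.Agent.P092.H962.tr0 hΓ hT hT')

/-- Leg 1. -/
theorem dbl_one (hΓ : ∀ g : Γ, g ≠ 1 → Set.Infinite {y : Γ | ∃ h, y = h * g * h⁻¹})
    (hT : Tri V R₁ R₂ ξ) (hT' : Tri R₁ V R₂ ξ') :
    Dbl (amV ι V) (amV ι R₁) (lg1 Γ ι) (amH ι (cop R₁ R₂ hT.comm₁₂)) (lg1 Γ ι)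
      (amH ι (cop V R₂ hT.comm₂)) (om ξ) (om ξ') where
  fr := frm_tri hΓ hT hT'
  fr' := frm_tri hΓ hT' hT
  sec g := ⟨((g, 1), 1), rfl, by
    rw [amH_apply, map_one, mul_one]
    change am ι (R₁ g * R₂ 1) = am ι (R₁ g)
    rw [map_one, mul_one]⟩
  sec' g := ⟨((g, 1), 1), rfl, by
    rw [amH_apply, map_one, mul_one]
    change am ι (V g * R₂ 1) = am ι (V g)
    rw [map_one, mul_one]⟩
  ker T := by
    have e : ∀ x : (Γ × Γ) × SP ι, lg1 Γ ι x = 1 →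
        amH ι (cop R₁ R₂ hT.comm₁₂) x = amH ι (cop V R₂ hT.comm₂) x := by
      intro x hx
      rw [lg1_apply] at hx
      rw [amH_apply, amH_apply]
      change am ι (R₁ x.1.1 * R₂ x.1.2) * sg x.2 = am ι (V x.1.1 * R₂ x.1.2) * sg x.2
      rw [hx, map_one, map_one]
    constructor
    · intro h y hy
      rw [← e y hy]
      exact h y hy
    · intro h y hy
      rw [e y hy]
      exact h y hy

end dbl

end Vale.Agent.P092.QT.D
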